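import Vale.Agent.Lib.P012_helper29.Covering
namespace Vale.Agent.Lib.P012
open Finset
variable {ι : Type} [Fintype ι] [DecidableEq ι]

/-- the numerical heart: `4 X^(3j) (4/5)^n < 1` when `K j ≤ n`, `1 ≤ j`, `8 X^3 ≤ (5/4)^K`. -/
theorem small_aux (X K n j : ℕ) (hj : 1 ≤ j) (hKj : K * j ≤ n)
    (hK : 8 * (X : ℝ) ^ 3 ≤ (5 / 4 : ℝ) ^ K) :
    (X : ℝ) ^ j * ((X : ℝ) ^ 2) ^ j * (4 * (4 / 5 : ℝ) ^ n) < 1 := by
  have hX0 : (0 : ℝ) ≤ X := Nat.cast_nonneg X
  have h45 : (4 / 5 : ℝ) ^ n ≤ (4 / 5 : ℝ) ^ (K * j) :=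
    pow_le_pow_of_le_one (by norm_num) (by norm_num) hKj
  have hb : (X : ℝ) ^ 3 * (4 / 5 : ℝ) ^ K ≤ 1 / 8 := by
    have h1 : (4 / 5 : ℝ) ^ K * (5 / 4 : ℝ) ^ K = 1 := by
      rw [← mul_pow]; norm_num
    have h2 : (0 : ℝ) < (4 / 5 : ℝ) ^ K := by positivity
    have h3 : 8 * (X : ℝ) ^ 3 * (4 / 5 : ℝ) ^ K ≤ (5 / 4 : ℝ) ^ K * (4 / 5 : ℝ) ^ K :=
      mul_le_mul_of_nonneg_right hK h2.le
    rw [mul_comm ((5 / 4 : ℝ) ^ K), h1] at h3
    linarith
  have hb0 : 0 ≤ (X : ℝ) ^ 3 * (4 / 5 : ℝ) ^ K := by positivity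
  have hc : ((X : ℝ) ^ 3 * (4 / 5 : ℝ) ^ K) ^ j ≤ 1 / 8 := by
    calc ((X : ℝ) ^ 3 * (4 / 5 : ℝ) ^ K) ^ j ≤ (1 / 8 : ℝ) ^ j := pow_le_pow_left₀ hb0 hb j
      _ ≤ (1 / 8 : ℝ) ^ 1 := pow_le_pow_of_le_one (by norm_num) (by norm_num) hj
      _ = 1 / 8 := by norm_num
  have hd : (X : ℝ) ^ j * ((X : ℝ) ^ 2) ^ j * (4 / 5 : ℝ) ^ (K * j)
      = ((X : ℝ) ^ 3 * (4 / 5 : ℝ) ^ K) ^ j := by
    rw [mul_pow, ← pow_mul, ← pow_mul, ← pow_mul, ← pow_add]
    congr 2
    ring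
  have he : 0 ≤ (X : ℝ) ^ j * ((X : ℝ) ^ 2) ^ j := by positivity
  calc (X : ℝ) ^ j * ((X : ℝ) ^ 2) ^ j * (4 * (4 / 5 : ℝ) ^ n)
      ≤ (X : ℝ) ^ j * ((X : ℝ) ^ 2) ^ j * (4 * (4 / 5 : ℝ) ^ (K * j)) := by
        apply mul_le_mul_of_nonneg_left _ he
        linarith
    _ = 4 * ((X : ℝ) ^ j * ((X : ℝ) ^ 2) ^ j * (4 / 5 : ℝ) ^ (K * j)) := by ring
    _ ≤ 4 * (1 / 8) := by rw [hd]; linarith
    _ < 1 := by norm_num

open Classical in
/-- the output of the greedy selection is a good sequence -/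
theorem goodSeq_of_greedy (p : ι → ℕ) (hp : ∀ a, (p a).Prime) (hinj : Function.Injective p)
    (h5 : ∀ a, 5 ≤ p a)
    (X : ℕ) (hX : ∀ a, p a ≤ X) (s : ℕ)
    (K : ℕ) (hK : 8 * (X : ℝ) ^ 3 ≤ (5 / 4 : ℝ) ^ K)
    (r : ℕ → ι) (hrinj : Set.InjOn r (Set.Iio s))
    (hpot : ∀ n ≤ s, ∑ χ ∈ (univ : Finset (Sys p)).filter (fun χ => χ ≠ 1 ∧ ¬ bad χ),
          (1 / (X : ℝ) ^ 2) ^ (supp χ).card *
            ∏ a ∈ (range n).image r, (‖1 + ev χ (p a)‖ ^ 2 / 4) ≤ 4 * (4 / 5 : ℝ) ^ n)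
    (hnb : ∀ χ : Sys p, χ ≠ 1 → supp χ ⊆ (range s).image r → ¬ bad χ) :
    GoodSeq (fun i => p (r i)) s K X := by
  have hrinj' : ∀ i < s, ∀ i' < s, r i = r i' → i = i' := fun i hi i' hi' h =>
    hrinj (Set.mem_Iio.mpr hi) (Set.mem_Iio.mpr hi') h
  refine ⟨fun i _ => hp _, fun i _ => h5 _, fun i _ => hX _, ?_, ?_⟩
  · intro i hi i' hi' h
    exact hrinj' i hi i' hi' (hinj h)
  · intro n j hj hKj hnj u hu
    -- X is positive
    have hX1 : (1 : ℝ) ≤ X := by
      have : 1 ≤ X := le_trans (by norm_num) (le_trans (h5 (r 0)) (hX (r 0)))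
      exact_mod_cast this
    set B : Finset ι := (Ico n (n + j)).image r with hB
    set R : Finset ι := (range n).image r with hR
    have hBcard : B.card = j := by
      rw [hB, Finset.card_image_of_injOn, Nat.card_Ico]
      · omega
      · intro a ha b hb hab
        have ha' := Finset.mem_Ico.mp (Finset.mem_coe.mp ha)
        have hb' := Finset.mem_Ico.mp (Finset.mem_coe.mp hb)
        exact hrinj' a (by omega) b (by omega) hab
    have hBR : Disjoint B R := by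
      rw [Finset.disjoint_left]
      intro a haB haR
      obtain ⟨i, hi, rfl⟩ := Finset.mem_image.mp haB
      obtain ⟨i', hi', hii⟩ := Finset.mem_image.mp haR
      have h1 := Finset.mem_Ico.mp hi
      have h2 := Finset.mem_range.mp hi'
      have := hrinj' i' (by omega) i (by omega) hii
      omega
    have hBs : B ⊆ (range s).image r := by
      apply Finset.image_subset_image
      intro i hi
      have h1 := Finset.mem_Ico.mp hi
      exact Finset.mem_range.mpr (by omega)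
    -- the smallness hypothesis of the covering lemma
    have hsmall : (X : ℝ) ^ B.card *
      ∑ χ ∈ (univ : Finset (Sys p)).filter (fun χ => χ ≠ 1 ∧ supp χ ⊆ B),
        ∏ a ∈ R, (‖1 + ev χ (p a)‖ ^ 2 / 4) < 1 := by
      have hprod0 : ∀ χ : Sys p, 0 ≤ ∏ a ∈ R, (‖1 + ev χ (p a)‖ ^ 2 / 4) := fun χ =>
        Finset.prod_nonneg (fun a _ => by positivity)
      have hstep : ∑ χ ∈ (univ : Finset (Sys p)).filter (fun χ => χ ≠ 1 ∧ supp χ ⊆ B),
          ∏ a ∈ R, (‖1 + ev χ (p a)‖ ^ 2 / 4)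
          ≤ ((X : ℝ) ^ 2) ^ j * (4 * (4 / 5 : ℝ) ^ n) := by
        calc ∑ χ ∈ (univ : Finset (Sys p)).filter (fun χ => χ ≠ 1 ∧ supp χ ⊆ B),
            ∏ a ∈ R, (‖1 + ev χ (p a)‖ ^ 2 / 4)
            ≤ ∑ χ ∈ (univ : Finset (Sys p)).filter (fun χ => χ ≠ 1 ∧ supp χ ⊆ B),
              ((X : ℝ) ^ 2) ^ j * ((1 / (X : ℝ) ^ 2) ^ (supp χ).card *
                ∏ a ∈ R, (‖1 + ev χ (p a)‖ ^ 2 / 4)) := by
              apply Finset.sum_le_sum
              intro χ hχ
              have hsub := (Finset.mem_filter.mp hχ).2.2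
              have hc : (supp χ).card ≤ j := hBcard ▸ Finset.card_le_card hsub
              have h1 : (1 : ℝ) ≤ ((X : ℝ) ^ 2) ^ j * (1 / (X : ℝ) ^ 2) ^ (supp χ).card := by
                have hx2 : (1 : ℝ) ≤ (X : ℝ) ^ 2 := one_le_pow₀ hX1
                have hx2' : (0 : ℝ) < (X : ℝ) ^ 2 := by positivity
                rw [one_div, inv_pow, ← div_eq_mul_inv, le_div_iff₀ (by positivity), one_mul]
                exact pow_le_pow_right₀ hx2 hc
              calc ∏ a ∈ R, (‖1 + ev χ (p a)‖ ^ 2 / 4)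
                  = 1 * ∏ a ∈ R, (‖1 + ev χ (p a)‖ ^ 2 / 4) := (one_mul _).symm
                _ ≤ (((X : ℝ) ^ 2) ^ j * (1 / (X : ℝ) ^ 2) ^ (supp χ).card) *
                    ∏ a ∈ R, (‖1 + ev χ (p a)‖ ^ 2 / 4) :=
                    mul_le_mul_of_nonneg_right h1 (hprod0 χ)
                _ = _ := by ring
          _ = ((X : ℝ) ^ 2) ^ j *
              ∑ χ ∈ (univ : Finset (Sys p)).filter (fun χ => χ ≠ 1 ∧ supp χ ⊆ B),
              ((1 / (X : ℝ) ^ 2) ^ (supp χ).card *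
                ∏ a ∈ R, (‖1 + ev χ (p a)‖ ^ 2 / 4)) := by rw [Finset.mul_sum]
          _ ≤ ((X : ℝ) ^ 2) ^ j *
              ∑ χ ∈ (univ : Finset (Sys p)).filter (fun χ => χ ≠ 1 ∧ ¬ bad χ),
              ((1 / (X : ℝ) ^ 2) ^ (supp χ).card *
                ∏ a ∈ R, (‖1 + ev χ (p a)‖ ^ 2 / 4)) := by
              apply mul_le_mul_of_nonneg_left _ (by positivity)
              apply Finset.sum_le_sum_of_subset_of_nonneg
              · intro χ hχ
                have h := (Finset.mem_filter.mp hχ).2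
                exact Finset.mem_filter.mpr ⟨Finset.mem_univ _, h.1,
                  hnb χ h.1 (h.2.trans hBs)⟩
              · intro χ _ _
                exact mul_nonneg (by positivity) (hprod0 χ)
          _ ≤ ((X : ℝ) ^ 2) ^ j * (4 * (4 / 5 : ℝ) ^ n) := by
              apply mul_le_mul_of_nonneg_left _ (by positivity)
              exact hpot n (by omega)
      calc (X : ℝ) ^ B.card *
          ∑ χ ∈ (univ : Finset (Sys p)).filter (fun χ => χ ≠ 1 ∧ supp χ ⊆ B),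
            ∏ a ∈ R, (‖1 + ev χ (p a)‖ ^ 2 / 4)
          ≤ (X : ℝ) ^ j * (((X : ℝ) ^ 2) ^ j * (4 * (4 / 5 : ℝ) ^ n)) := by
            rw [hBcard]
            exact mul_le_mul_of_nonneg_left hstep (by positivity)
        _ = (X : ℝ) ^ j * ((X : ℝ) ^ 2) ^ j * (4 * (4 / 5 : ℝ) ^ n) := by ring
        _ < 1 := small_aux X K n j hj hKj hK
    -- transport the residues to the index type
    let u' : ι → ℕ := fun b =>
      if h : ∃ i, n ≤ i ∧ i < n + j ∧ r i = b then u h.choose else 1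
    have hu'val : ∀ i, n ≤ i → i < n + j → u' (r i) = u i := by
      intro i h1 h2
      have hex : ∃ i', n ≤ i' ∧ i' < n + j ∧ r i' = r i := ⟨i, h1, h2, rfl⟩
      have hspec := hex.choose_spec
      have : hex.choose = i := hrinj' _ (by omega) i (by omega) hspec.2.2
      simp only [u', dif_pos hex, this]
    have hu' : ∀ b ∈ B, ¬ p b ∣ u' b := by
      intro b hb
      obtain ⟨i, hi, rfl⟩ := Finset.mem_image.mp hb
      have h1 := Finset.mem_Ico.mp hi
      rw [hu'val i h1.1 h1.2]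
      exact hu i h1.1 h1.2
    obtain ⟨S', hS'R, hS'⟩ := covering p hp hinj X hX B R hBR hsmall u' hu'
    refine ⟨(range n).filter (fun k => r k ∈ S'), Finset.filter_subset _ _, ?_⟩
    intro i h1 h2
    have himg : ((range n).filter (fun k => r k ∈ S')).image r = S' := by
      ext a
      constructor
      · intro ha
        obtain ⟨k, hk, rfl⟩ := Finset.mem_image.mp ha
        exact (Finset.mem_filter.mp hk).2
      · intro ha
        obtain ⟨k, hk, rfl⟩ := Finset.mem_image.mp (hS'R ha)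
        exact Finset.mem_image.mpr ⟨k, Finset.mem_filter.mpr ⟨hk, ha⟩, rfl⟩
    have hprod : ∏ k ∈ (range n).filter (fun k => r k ∈ S'), p (r k) = ∏ a ∈ S', p a := by
      have hpi : ∏ a ∈ ((range n).filter (fun k => r k ∈ S')).image r, p a
          = ∏ k ∈ (range n).filter (fun k => r k ∈ S'), p (r k) := by
        apply Finset.prod_image
        intro a ha b hb hab
        have ha' := Finset.mem_range.mp (Finset.mem_filter.mp ha).1
        have hb' := Finset.mem_range.mp (Finset.mem_filter.mp hb).1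
        exact hrinj' a (by omega) b (by omega) hab
      rw [← hpi, himg]
    have := hS' (r i) (Finset.mem_image.mpr ⟨i, Finset.mem_Ico.mpr ⟨h1, h2⟩, rfl⟩)
    rw [hu'val i h1 h2] at this
    rw [hprod]
    exact this

end Vale.Agent.Lib.P012
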